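import Vale.Agent.P042.MainF

/-- Power saving for sets avoiding the values of an intersective polynomial. -/
theorem Vale.Agent.Results.P042.PowerSaving.result (k : ℕ) (hk : 2 ≤ k) :
    ∃ c : ℝ, 0 < c ∧ ∀ h : Polynomial ℤ, h.natDegree = k → 0 < h.leadingCoeff →
      (∀ q : ℕ, 1 ≤ q → ∃ t : ℤ, (q : ℤ) ∣ h.eval t) →
      ∃ C : ℝ, ∀ (N : ℕ) (A : Finset ℕ), A ⊆ Finset.Icc 1 N →
        (∀ a ∈ A, ∀ b ∈ A, ∀ n : ℕ, 1 ≤ n →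
          (a : ℤ) - (b : ℤ) = h.eval (n : ℤ) → h.eval (n : ℤ) = 0) →
        (A.card : ℝ) ≤ C * (N : ℝ) ^ (1 - c) :=
  Vale.Agent.P042.power_saving k hk
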